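import Vale.Agent.P201.H370.Main

/-!
Kaplansky's conjectures on group algebras of torsion-free groups all fail for one finitely
presented torsion-free group, over every field of characteristic 2.
-/

namespace Vale.Agent.Results.P201.KaplanskyConjectures

universe u v w

/-- There is a finitely presented group `G` in which the identity is the only element of finite
order, such that for every field `K` of characteristic 2 the group algebra `K[G]` contains
(1) nonzero elements `a`, `b` with `a * b = 0`, (2) an idempotent different from `0` and `1`,
(3) an involution in the group of units which is not a multiple of a group element, (4) elements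
`a`, `b` with `a * b = 1`, `b * a ≠ 1`. Moreover, for every group `H` containing `G` and every
nontrivial ring `K` of characteristic 2, all matrix rings `M_n(K)` embed in `K[H]` and all finite
groups embed in the group of units of `K[H]`. -/
theorem result :
    ∃ (G : Type) (_ : Group G), (∀ g : G, ∀ m : ℕ, 0 < m → g ^ m = 1 → g = 1) ∧
      Group.IsFinitelyPresented G ∧
      (∀ (K : Type u) [Field K] [CharP K 2],
        (∃ a b : MonoidAlgebra K G, a ≠ 0 ∧ b ≠ 0 ∧ a * b = 0) ∧
        (∃ e : MonoidAlgebra K G, e * e = e ∧ e ≠ 0 ∧ e ≠ 1) ∧
        (∃ u : (MonoidAlgebra K G)ˣ, u * u = 1 ∧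
          ∀ (g : G) (k : K), (u : MonoidAlgebra K G) ≠ MonoidAlgebra.single g k) ∧
        (∃ a b : MonoidAlgebra K G, a * b = 1 ∧ b * a ≠ 1)) ∧
      ∀ (H : Type v) [Group H] (i : G →* H), Function.Injective i →
        ∀ (K : Type u) [Ring K] [Nontrivial K] [CharP K 2],
          (∀ n : ℕ, ∃ φ : Matrix (Fin n) (Fin n) K →ₙ+* MonoidAlgebra K H,
            Function.Injective φ) ∧
          ∀ (Γ : Type w) [Group Γ] [Finite Γ],
            ∃ ψ : Γ →* (MonoidAlgebra K H)ˣ, Function.Injective ψ :=
  Vale.Agent.P201.H370.main

end Vale.Agent.Results.P201.KaplanskyConjectures
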