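import Vale.Agent.P201.Bd3.B4
import Vale.Agent.P201.Bd3.B3
import Vale.Agent.P201.Bd3.B1
import Mathlib.GroupTheory.FinitelyPresentedGroup
import Vale.Agent.P201.H962.MU

/-!
Kaplansky's zero divisor conjecture: one finitely presented torsion-free group `G` whose group
rings over all nontrivial rings `K` of characteristic 2, and those of all groups containing `G`,
contain all matrix rings over `K`.
-/

universe u v

/-- There is a finitely presented group `G` in which the identity is the only element of finite
order, such that (1) for every field `K` of characteristic 2 the group algebra `K[G]` contains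
nonzero elements `a`, `b` with `a * b = 0`; (2) for every nontrivial ring `K` of characteristic 2,
every group `H` containing `G` and every `n` there is an injective multiplicative and additive map
from the ring of `n × n` matrices over `K` to `K[H]`. -/
theorem Vale.Agent.Results.P201.MatrixUnits.result :
    ∃ (G : Type) (_ : Group G), (∀ g : G, ∀ m : ℕ, 0 < m → g ^ m = 1 → g = 1) ∧
      Group.IsFinitelyPresented G ∧
      (∀ (K : Type u) [Field K] [CharP K 2],
        ∃ a b : MonoidAlgebra K G, a ≠ 0 ∧ b ≠ 0 ∧ a * b = 0) ∧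
      ∀ (K : Type u) [Ring K] [Nontrivial K] [CharP K 2] (H : Type v) [Group H] (i : G →* H),
        Function.Injective i → ∀ n : ℕ,
          ∃ f : Matrix (Fin n) (Fin n) K →ₙ+* MonoidAlgebra K H, Function.Injective f := by
  obtain ⟨S, σ, e1, he1, Y, htor, hlin, a, b, hab, hba⟩ :=
    Vale.Agent.P194.M.data Vale.Agent.P201.S.stmtLoc Vale.Agent.P201.S.stmtGlob
      Vale.Agent.P201.S.stmtTor
  have : Finite (Vale.Agent.P201.S.rels σ) :=
    (Vale.Agent.P186.Hyp.rels_finite σ).to_subtype
  refine ⟨Vale.Agent.P201.S.Gp σ, inferInstance, htor, inferInstance, fun K _ _ => ?_,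
    fun K _ _ _ H _ i hi n => Vale.Agent.P201.H962.exists_emb hab hba K H i hi n⟩
  obtain ⟨f, hf⟩ := Vale.Agent.P201.H962.exists_emb hab hba K _ (MonoidHom.id _)
    Function.injective_id 2
  have h1 : (!![1, 0; 0, 0] : Matrix (Fin 2) (Fin 2) K) ≠ 0 := fun h => by
    simpa using congrFun (congrFun h 0) 0
  have h2 : (!![0, 0; 0, 1] : Matrix (Fin 2) (Fin 2) K) ≠ 0 := fun h => by
    simpa using congrFun (congrFun h 1) 1
  refine ⟨f !![1, 0; 0, 0], f !![0, 0; 0, 1], fun h => h1 (hf (by rw [h, map_zero])),
    fun h => h2 (hf (by rw [h, map_zero])), ?_⟩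
  rw [← map_mul]
  have : (!![1, 0; 0, 0] : Matrix (Fin 2) (Fin 2) K) * !![0, 0; 0, 1] = 0 := by
    ext p q
    fin_cases p <;> fin_cases q <;> simp [Matrix.mul_apply, Fin.sum_univ_two]
  rw [this, map_zero]
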